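import Vale.Agent.Lib.P184.Cor

/-!
# The `ℓ¹`-Bass conjecture: vanishing at elements with a translation character

(1) For every group `G` and every `g ∈ G`: if for every finitely generated subgroup `H`
containing `g` there are a length function `ℓ` on `H` and a homomorphism `ψ` from the centralizer
of `g` in `H` to `ℝ` with `|ψ| ≤ ℓ` and `ψ(g) ≠ 0`, then the coefficient at the class of `g` of
the Hattori-Stallings trace of every idempotent matrix over `ℓ¹(G)` is zero.

(2) This applies to every element of positive translation length in every isometric action
on a CAT(0) space.

(3) If `G` acts by isometries on a CAT(0) space in such a way that all elements of infinite order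
have positive translation length, and `G` has only finitely many conjugacy classes of elements of
finite order, then `G` satisfies the `ℓ¹`-Bass conjecture.
-/

namespace Vale.Agent.Results.P184.CatZero

open Vale.Agent.P184

universe u v

theorem result :
    (∀ (G : Type u) [Group G] (g : G),
      (∀ (H : Subgroup G) (hg : g ∈ H), H.FG → HasTranslationCharacter (⟨g, hg⟩ : H)) →
        VanishesAt g) ∧
    (∀ (G : Type u) [Group G] (X : Type v) [MetricSpace X] [MulAction G X] [IsIsometricSMul G X],
      IsCAT0 X → ∀ g : G, PositiveTranslationLength X g → VanishesAt g) ∧
    (∀ (G : Type u) [Group G] (X : Type v) [MetricSpace X] [MulAction G X] [IsIsometricSMul G X],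
      IsCAT0 X → (∀ g : G, ¬ IsOfFinOrder g → PositiveTranslationLength X g) →
        {c : ConjClasses G | ∀ g ∈ c.carrier, IsOfFinOrder g}.Finite → L1Bass G) := by
  refine ⟨fun G _ g hg => vanishesAt_of_local g hg, ?_, ?_⟩
  · intro G _ X _ _ _ hX g hg
    exact vanishesAt_of_translationCharacter g (hasTranslationCharacter_of_CAT0 hX g hg)
  · intro G _ X _ _ _ hX h hfin
    refine l1Bass_of_vanishesAt hfin fun g hg => ?_
    exact vanishesAt_of_translationCharacter g (hasTranslationCharacter_of_CAT0 hX g (h g hg))

end Vale.Agent.Results.P184.CatZero
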