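import Vale.Agent.Lib.P184.Draw3

/-!
# P184: the `ℓ¹`-Bass conjecture for groups whose infinite-order elements translate locally

`Q1` for every group `G` with finitely many conjugacy classes of torsion elements in which every
element of infinite order translates locally; and, for all groups, the vanishing of the
Hattori-Stallings coefficient at every element which translates locally.
-/

namespace Vale.Agent.Results.P184.LocalTranslations

open Vale.Agent.P184.Draw3

universe u v

theorem result :
    -- the conclusion of Q1 for a class of groups
    (∀ (G : Type u) [Group G],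
      (∀ g : G, ¬ IsOfFinOrder g → LocallyTranslates.{u, v} g) →
      (∃ S : Finset G, ∀ g : G, IsOfFinOrder g → ∃ s ∈ S, IsConj s g) →
      ∀ (q : ℕ) (e : Matrix (Fin q) (Fin q) (lp (fun _ : G => ℂ) 1)), Idempotent e →
        ∃ F : Finset G, (∀ s ∈ F, IsOfFinOrder s) ∧
          ∀ g : G, (∀ s ∈ F, ¬ IsConj s g) → tau e g = 0) ∧
    -- the coefficient at one class, in every group
    (∀ (G : Type u) [Group G] (g : G), LocallyTranslates.{u, v} g →
      ∀ (q : ℕ) (e : Matrix (Fin q) (Fin q) (lp (fun _ : G => ℂ) 1)), Idempotent e →
        tau e g = 0) ∧
    -- one isometric action of the whole group on a CAT(0) space is enough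
    (∀ (G : Type u) [Group G] (g : G), TranslatesOnCAT0.{u, v} g → LocallyTranslates.{u, v} g) :=
  ⟨fun _ _ h hfin _ _ he => finite_support hfin
      (fun g hg => vanishesAt_of_locallyTranslates (h g hg)) he,
    fun _ _ _ h _ _ he => tau_eq_zero (vanishesAt_of_locallyTranslates h) he,
    fun _ _ _ h => locallyTranslates_of_translates h⟩

end Vale.Agent.Results.P184.LocalTranslations
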